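import Vale.Agent.P269.Pub.Top

/-!
# The text of the virtual class as the Gysin pull-back of the normal cone
-/

noncomputable section

namespace Vale.Agent.P269L.Tx

open Set Function Topology Filter Classical Vale.Agent.P269.Pub

/-- The length of a ring. -/
def len (L : Type) [CommRing L] : ℂ := (Module.length L L).toNat

/-- `m` is the length of the localisation of `R` at a minimal prime. -/
def Mlt (R : Type) [CommRing R] (m : ℂ) : Prop :=
  ∃ (p : Ideal R) (_ : p.IsPrime), p ∈ minimalPrimes R ∧ m = len (Localization.AtPrime p)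

/-- The same for `R / (k)`. -/
def MltQ {R : Type} [CommRing R] (k : Set R) : ℂ → Prop := Mlt (R ⧸ Ideal.span k)

/-- The same for `a / (k)`, where `a` is a subring. -/
def MltS {R : Type} [CommRing R] (a k : Set R) : ℂ → Prop :=
  MltQ {f : Subring.closure a | f.1 ∈ k}

variable {A W P E : Type} [NormedRing A] [NormedAlgebra ℂ A] [NormedAddCommGroup W] [NormedSpace ℂ W]
  [NormedAddCommGroup E] [NormedSpace ℂ E] [AddCommGroup P] [Module ℂ P] [TopologicalSpace P]
  (act : A → W → W) (ρ : A → P → P) (S : Set W)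

/-- The values of `β` at the centres of the slices. -/
def Slc (m : W → ℂ → Prop) (τ : Co E) (q : Prop) (β : Bm (Quo act S)) : Prop :=
  ∀ (U : Set E) (φ : U → S) (h : 0 ∈ U) (Φ : E → W),
    let μ := fun y : A × E => act y.1 (Φ y.2)
    let ψ : U → Quo act S := fun z => Quot.mk _ (φ z)
    IsOpen U → AnalyticOnNhd ℂ Φ U → (∀ z, (φ z).1 = Φ z.1) → Injective (fderiv ℂ μ (1, 0)) →
    𝓝[S] (Φ 0) ≤ map μ (𝓝 (1, 0)) → q ∧ ∀ a, Zc a → (∀ y, supp a y → y = ψ ⟨0, h⟩) →
      Cohom {z | z.1 = 0} (pull ψ a) (pull Subtype.val τ) →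
      m (Φ 0) (β a * Nat.card {g // IsUnit g ∧ act g (Φ 0) = Φ 0})

/-- `β` is the fundamental cycle of the quotient stack with multiplicities `m`. -/
def IsCyc (m : W → ℂ → Prop) (β : Bm (Quo act S)) : Prop :=
  IsBM β ∧ ∃ d : ℕ, (∀ j a, j ≠ 2 * (d : ℤ) → IsDeg j a → β a = 0) ∧
    ∀ r, Slc (E := Fin r → ℂ) act S m (tau r) (r = d) β

/-- The fundamental class: all multiplicities are one. -/
def IsFund : Bm (Quo act S) → Prop := IsCyc act S fun _ z => z = 1

/-- `q` is a form of degree `n` on `E` with coefficients holomorphic at `x`. -/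
def Form (n : ℕ) (x : W) (q : W × E → ℂ) : Prop :=
  AnalyticAt ℂ q (x, 0) ∧ ∀ z u (t : ℂ), q (z, t • u) = t ^ n * q (z, u)

/-- The equations at `y` of the normal cone of `M ∩ {u = 0}` in `M`. -/
def Ini (M : Set (W × E)) (y : W × E) : Set (W × E → ℂ) :=
  {f | ∃ n q q', Form n (y.1, (0 : E)) q ∧ Form (n + 1) (y.1, (0 : E)) q' ∧
    (∀ᶠ z in 𝓝[M] (y.1, 0), q (z, z.2) = q' (z, z.2)) ∧ f =ᶠ[𝓝 y] fun z => q ((z.1, 0), z.2)}

/-- The multiplicity of the normal cone at `y`. -/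
abbrev Mul (M : Set (W × E)) (y : W × E) : ℂ → Prop := MltS {f | AnalyticAt ℂ f y} (Ini M y)

/-- The points of the normal cone. -/
abbrev Cone (sol : Set W) (M : Set (W × E)) : Set (W × E) := {y | y.1 ∈ sol ∧ ∀ f ∈ Ini M y, f y = 0}

/-- The smooth space of representatives of the section. -/
abbrev Rp (van : W → Set P) (σ : W → P) (j : E → P) : Set (W × E) :=
  {z : W × E | z.1 ∈ S ∧ σ z.1 - j z.2 ∈ van z.1}

/-- The action on pairs. -/
abbrev act2 (ρ' : A → E → E) : A → W × E → W × E := fun a y => (act a y.1, ρ' a y.2)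

/-- The virtual class in coordinates. -/
def VirE (sol : Set W) (pol : Set P) (van obs : W → Set P) (σ : W → P) (j : E → P) (ρ' : A → E → E)
    (v : Bm (Quo act sol)) : Prop :=
  let K := Ini {z : W × E | z.1 ∈ S ∧ σ z.1 - j z.2 ∈ van z.1}
  let C := {y | y.1 ∈ sol ∧ ∀ f ∈ K y, f y = 0}
  let act' := fun a (y : W × E) => (act a y.1, ρ' a y.2)
  IsLinearMap ℂ j ∧ Injective j ∧ range j = pol ∧ (∀ a u, IsUnit a → j (ρ' a u) = ρ a (j u)) ∧
  (∀ y ∈ C, j y.2 ∈ obs y.1) ∧ ∃ β e, ∃ π : Quo act' C → Quo act sol,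
    IsCyc act' C (fun y => MltS {f | AnalyticAt ℂ f y} (K y)) β ∧
    IsLoc act' ρ C (fun y => Submodule.span ℂ (obs y.1)) (fun _ => ⊥) (fun y => j y.2) e ∧
    (∀ y : C, ∃ x : sol, x.1 = y.1.1 ∧ π (Quot.mk _ y) = Quot.mk _ x) ∧ IsBM v ∧
    ∀ a, Zc a → v a = β (cup (pull π a) e)

/-- The virtual class `0^! [C]`. -/
def IsVir (sol : Set W) (pol : Set P) (van obs : W → Set P) (σ : W → P)
    (v : Bm (Quo act sol)) : Prop :=
  ∃ r j ρ', VirE (E := Fin r → ℂ) act ρ S sol pol van obs σ j ρ' v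

end Vale.Agent.P269L.Tx
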